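import Mathlib

namespace Vale.Agent.Results.P344.LinearLowerBound

open Finset

/-- A gate of a linear circuit; the indices point at earlier nodes of the circuit. -/
inductive Gate where
  | add (i j : ℕ) : Gate
  | sub (i j : ℕ) : Gate
  | smul (c : ℂ) (i : ℕ) : Gate

/-- The linear form (as a coefficient vector) computed by a gate, given the list of the
forms computed at the earlier nodes.  An index outside the list reads the zero form. -/
noncomputable def gateVal (n : ℕ) (vals : List (Fin n → ℂ)) : Gate → (Fin n → ℂ)
  | Gate.add i j => vals.getD i 0 + vals.getD j 0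
  | Gate.sub i j => vals.getD i 0 - vals.getD j 0
  | Gate.smul c i => c • vals.getD i 0

/-- Run a list of gates, appending the form computed by each gate to the list of nodes. -/
noncomputable def run (n : ℕ) : List Gate → List (Fin n → ℂ) → List (Fin n → ℂ)
  | [], vals => vals
  | g :: gs, vals => run n gs (vals ++ [gateVal n vals g])

/-- The initial nodes: the constant `0` and the inputs `x_0, ..., x_{n-1}`. -/
noncomputable def inputs (n : ℕ) : List (Fin n → ℂ) :=
  0 :: List.ofFn (fun k : Fin n => (Pi.single k 1 : Fin n → ℂ))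

/-- Row `j` of the unnormalised Fourier matrix `F_n`, as a coefficient vector. -/
noncomputable def dftRow (n : ℕ) (j : Fin n) : Fin n → ℂ :=
  fun k => Complex.exp (2 * Real.pi * Complex.I / n) ^ ((j : ℕ) * (k : ℕ))

/-- The circuit `gs` computes `F_n x`: every row of `F_n` is the form at some node. -/
def Computes (n : ℕ) (gs : List Gate) : Prop :=
  ∀ j : Fin n, dftRow n j ∈ run n gs (inputs n)

/-- number of addition and subtraction gates -/
def binCount : List Gate → ℕ
  | [] => 0
  | Gate.add _ _ :: gs => binCount gs + 1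
  | Gate.sub _ _ :: gs => binCount gs + 1
  | Gate.smul _ _ :: gs => binCount gs

/-- number of scalar gates -/
def smulCount : List Gate → ℕ
  | [] => 0
  | Gate.add _ _ :: gs => smulCount gs
  | Gate.sub _ _ :: gs => smulCount gs
  | Gate.smul _ _ :: gs => smulCount gs + 1

theorem count_add (gs : List Gate) : binCount gs + smulCount gs = gs.length := by
  induction gs with
  | nil => rfl
  | cons g gs ih =>
    cases g <;> simp [binCount, smulCount] <;> omega

theorem getD_mem {n : ℕ} (vals : List (Fin n → ℂ)) (h0 : (0 : Fin n → ℂ) ∈ vals) (i : ℕ) :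
    vals.getD i 0 ∈ vals := by
  by_cases hi : i < vals.length
  · rw [List.getD_eq_getElem _ _ hi]
    exact List.getElem_mem hi
  · rw [List.getD_eq_default _ _ (by omega)]
    exact h0

/-- the support of `v` lies in a single class of the labelling `c` -/
def OneClass {n : ℕ} (c : Fin n → ℕ) (v : Fin n → ℂ) : Prop :=
  ∃ l, ∀ k, v k ≠ 0 → c k = l

/-- `j` is present: a nonzero multiple of row `j` is among the nodes -/
def Present {n : ℕ} (vals : List (Fin n → ℂ)) (j : Fin n) : Prop :=
  ∃ v ∈ vals, ∃ a : ℂ, a ≠ 0 ∧ v = a • dftRow n j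

/-- the invariant carried along the circuit -/
def Inv (n : ℕ) (hn : 2 ≤ n) (vals : List (Fin n → ℂ)) (B M : ℕ) : Prop :=
  (0 : Fin n → ℂ) ∈ vals ∧
  (∃ c : Fin n → ℕ, (∀ v ∈ vals, OneClass c v) ∧ n ≤ (univ.image c).card + B) ∧
  (∀ J : Finset (Fin n), (∀ j ∈ J, Present vals j) → J.Nonempty → n + J.card ≤ B + 2) ∧
  (∃ S : Finset ℂ, S.card ≤ M + 1 ∧
    ∀ v ∈ vals, v ⟨1, by omega⟩ ∈ Submodule.span ℚ (S : Set ℂ))

theorem zeta_ne_zero (n : ℕ) : Complex.exp (2 * Real.pi * Complex.I / n) ≠ 0 :=
  Complex.exp_ne_zero _

theorem dftRow_ne_zero (n : ℕ) (j k : Fin n) : dftRow n j k ≠ 0 := by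
  unfold dftRow
  exact pow_ne_zero _ (zeta_ne_zero n)

theorem dftRow_zero (n : ℕ) (hn : 2 ≤ n) (j : Fin n) : dftRow n j ⟨0, by omega⟩ = 1 := by
  unfold dftRow
  simp

theorem dftRow_one (n : ℕ) (hn : 2 ≤ n) (j : Fin n) :
    dftRow n j ⟨1, by omega⟩ = Complex.exp (2 * Real.pi * Complex.I / n) ^ (j : ℕ) := by
  unfold dftRow
  simp

/-- two rows of `F_n` that are proportional are equal -/
theorem row_inj (n : ℕ) (hn : 2 ≤ n) (j j' : Fin n) (a a' : ℂ) (ha : a ≠ 0)
    (h : a • dftRow n j = a' • dftRow n j') : j = j' := by
  have h0 := congrFun h ⟨0, by omega⟩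
  simp only [Pi.smul_apply, smul_eq_mul, dftRow_zero n hn, mul_one] at h0
  subst h0
  have h1 := congrFun h ⟨1, by omega⟩
  simp only [Pi.smul_apply, smul_eq_mul, dftRow_one n hn] at h1
  have h2 := mul_left_cancel₀ ha h1
  have hprim := Complex.isPrimitiveRoot_exp n (by omega)
  exact Fin.ext (hprim.pow_inj j.2 j'.2 h2)

theorem card_image_merge (T : Finset ℕ) (p q : ℕ) :
    T.card ≤ (T.image (fun l => if l = q then p else l)).card + 1 := by
  have h1 : (T.erase q).card ≤ (T.image (fun l => if l = q then p else l)).card := by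
    have hsub : (T.erase q).image (fun l => if l = q then p else l) ⊆
        T.image (fun l => if l = q then p else l) :=
      image_subset_image (erase_subset _ _)
    have hinj : Set.InjOn (fun l => if l = q then p else l) (T.erase q : Set ℕ) := by
      intro x hx y hy hxy
      have hx' : x ≠ q := (mem_erase.mp (mem_coe.mp hx)).1
      have hy' : y ≠ q := (mem_erase.mp (mem_coe.mp hy)).1
      simpa [hx', hy'] using hxy
    calc (T.erase q).card = ((T.erase q).image (fun l => if l = q then p else l)).card :=
          (card_image_of_injOn hinj).symm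
      _ ≤ _ := card_le_card hsub
  have h2 : T.card ≤ (T.erase q).card + 1 := by
    by_cases hq : q ∈ T
    · rw [card_erase_of_mem hq]; omega
    · rw [erase_eq_of_notMem hq]; omega
  omega

/-- a form all of whose coefficients are nonzero forces a single class -/
theorem card_image_of_full {n : ℕ} (c : Fin n → ℕ) (v : Fin n → ℂ) (hv : ∀ k, v k ≠ 0)
    (hc : OneClass c v) : (univ.image c).card ≤ 1 := by
  obtain ⟨l, hl⟩ := hc
  have : univ.image c ⊆ {l} := by
    intro x hx
    obtain ⟨k, -, rfl⟩ := mem_image.mp hx
    exact mem_singleton.mpr (hl k (hv k))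
  exact (card_le_card this).trans (by simp)

/-- the step for an addition or subtraction gate -/
theorem step_bin (n : ℕ) (hn : 2 ≤ n) (vals : List (Fin n → ℂ)) (B M : ℕ)
    (hI : Inv n hn vals B M) (u v w : Fin n → ℂ) (hu : u ∈ vals) (hv : v ∈ vals)
    (hw : w = u + v ∨ w = u - v) : Inv n hn (vals ++ [w]) (B + 1) M := by
  obtain ⟨h0, ⟨c, hc, hcard⟩, hJ, ⟨S, hS, hspan⟩⟩ := hI
  have hsupp : ∀ k, w k ≠ 0 → u k ≠ 0 ∨ v k ≠ 0 := by
    intro k hk
    by_contra hcon
    push Not at hcon
    rcases hw with rfl | rfl
    · exact hk (by simp [hcon.1, hcon.2])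
    · exact hk (by simp [hcon.1, hcon.2])
  -- the new labelling
  obtain ⟨p, hp⟩ := hc u hu
  obtain ⟨q, hq⟩ := hc v hv
  have hA : ∃ c' : Fin n → ℕ, (∀ x ∈ vals ++ [w], OneClass c' x) ∧
      n ≤ (univ.image c').card + (B + 1) := by
    refine ⟨fun k => if c k = q then p else c k, ?_, ?_⟩
    · intro x hx
      rcases List.mem_append.mp hx with hx | hx
      · obtain ⟨l, hl⟩ := hc x hx
        refine ⟨if l = q then p else l, fun k hk => ?_⟩
        simp only [hl k hk]
      · rw [List.mem_singleton] at hx
        subst hx
        refine ⟨p, fun k hk => ?_⟩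
        rcases hsupp k hk with h | h
        · have := hp k h
          by_cases hpq : c k = q
          · simp [hpq]
          · simp [this]
        · have := hq k h
          simp [this]
    · have himg : univ.image (fun k => if c k = q then p else c k) =
          (univ.image c).image (fun l => if l = q then p else l) := by
        rw [image_image]
        rfl
      rw [himg]
      have := card_image_merge (univ.image c) p q
      omega
  refine ⟨List.mem_append_left _ h0, hA, ?_, ⟨S, hS, ?_⟩⟩
  · intro J hJp hJne
    by_cases hall : ∀ j ∈ J, Present vals j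
    · have := hJ J hall hJne
      omega
    · push Not at hall
      obtain ⟨js, hjs, hnot⟩ := hall
      -- `js` is witnessed by `w` only
      have hwjs : ∃ a : ℂ, a ≠ 0 ∧ w = a • dftRow n js := by
        obtain ⟨x, hx, a, ha, hxa⟩ := hJp js hjs
        rcases List.mem_append.mp hx with hx | hx
        · exact absurd ⟨x, hx, a, ha, hxa⟩ hnot
        · rw [List.mem_singleton] at hx
          subst hx
          exact ⟨a, ha, hxa⟩
      obtain ⟨a, ha, hwa⟩ := hwjs
      have hothers : ∀ j ∈ J.erase js, Present vals j := by
        intro j hj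
        obtain ⟨hne, hjJ⟩ := mem_erase.mp hj
        obtain ⟨x, hx, a', ha', hxa⟩ := hJp j hjJ
        rcases List.mem_append.mp hx with hx | hx
        · exact ⟨x, hx, a', ha', hxa⟩
        · rw [List.mem_singleton] at hx
          subst hx
          exact absurd (row_inj n hn js j a a' ha (hwa.symm.trans hxa)).symm hne
      by_cases hne : (J.erase js).Nonempty
      · have := hJ (J.erase js) hothers hne
        rw [card_erase_of_mem hjs] at this
        have hpos : 0 < J.card := card_pos.mpr hJne
        omega
      · rw [not_nonempty_iff_eq_empty] at hne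
        have hcardJ : J.card = 1 := by
          have := card_erase_of_mem hjs
          rw [hne] at this
          simp at this
          have hpos : 0 < J.card := card_pos.mpr hJne
          omega
        obtain ⟨c', hc', hcard'⟩ := hA
        have hfull : ∀ k, w k ≠ 0 := by
          intro k
          rw [hwa]
          simp only [Pi.smul_apply, smul_eq_mul]
          exact mul_ne_zero ha (dftRow_ne_zero n js k)
        have := card_image_of_full c' w hfull (hc' w (List.mem_append_right _ (by simp)))
        omega
  · intro x hx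
    rcases List.mem_append.mp hx with hx | hx
    · exact hspan x hx
    · rw [List.mem_singleton] at hx
      subst hx
      rcases hw with rfl | rfl
      · exact Submodule.add_mem _ (hspan u hu) (hspan v hv)
      · exact Submodule.sub_mem _ (hspan u hu) (hspan v hv)

/-- the step for a scalar gate -/
theorem step_smul (n : ℕ) (hn : 2 ≤ n) (vals : List (Fin n → ℂ)) (B M : ℕ)
    (hI : Inv n hn vals B M) (u : Fin n → ℂ) (hu : u ∈ vals) (a : ℂ) :
    Inv n hn (vals ++ [a • u]) B (M + 1) := by
  obtain ⟨h0, ⟨c, hc, hcard⟩, hJ, ⟨S, hS, hspan⟩⟩ := hI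
  refine ⟨List.mem_append_left _ h0, ⟨c, ?_, hcard⟩, ?_, ?_⟩
  · intro x hx
    rcases List.mem_append.mp hx with hx | hx
    · exact hc x hx
    · rw [List.mem_singleton] at hx
      subst hx
      obtain ⟨l, hl⟩ := hc u hu
      refine ⟨l, fun k hk => hl k ?_⟩
      intro h
      exact hk (by simp [h])
  · intro J hJp hJne
    refine hJ J (fun j hj => ?_) hJne
    obtain ⟨x, hx, b, hb, hxb⟩ := hJp j hj
    rcases List.mem_append.mp hx with hx | hx
    · exact ⟨x, hx, b, hb, hxb⟩
    · rw [List.mem_singleton] at hx
      subst hx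
      have ha : a ≠ 0 := by
        rintro rfl
        have := congrFun hxb ⟨0, by omega⟩
        simp [dftRow_zero n hn] at this
        exact hb this.symm
      refine ⟨u, hu, a⁻¹ * b, mul_ne_zero (inv_ne_zero ha) hb, ?_⟩
      rw [mul_smul, ← hxb, smul_smul, inv_mul_cancel₀ ha, one_smul]
  · classical
    refine ⟨insert (a * u ⟨1, by omega⟩) S, ?_, ?_⟩
    · have := card_insert_le (a * u ⟨1, by omega⟩) S
      omega
    · intro x hx
      rcases List.mem_append.mp hx with hx | hx
      · exact Submodule.span_mono (by simp) (hspan x hx)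
      · rw [List.mem_singleton] at hx
        subst hx
        apply Submodule.subset_span
        simp

theorem run_inv (n : ℕ) (hn : 2 ≤ n) : ∀ (gs : List Gate) (vals : List (Fin n → ℂ)) (B M : ℕ),
    Inv n hn vals B M → Inv n hn (run n gs vals) (B + binCount gs) (M + smulCount gs) := by
  intro gs
  induction gs with
  | nil => intro vals B M h; simpa [run, binCount, smulCount] using h
  | cons g gs ih =>
    intro vals B M h
    have h0 := h.1
    cases g with
    | add i j =>
      have := ih _ _ _ (step_bin n hn vals B M h _ _ (gateVal n vals (Gate.add i j))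
        (getD_mem vals h0 i) (getD_mem vals h0 j) (Or.inl rfl))
      simpa [run, binCount, smulCount, add_assoc, add_comm 1] using this
    | sub i j =>
      have := ih _ _ _ (step_bin n hn vals B M h _ _ (gateVal n vals (Gate.sub i j))
        (getD_mem vals h0 i) (getD_mem vals h0 j) (Or.inr rfl))
      simpa [run, binCount, smulCount, add_assoc, add_comm 1] using this
    | smul a i =>
      have := ih _ _ _ (step_smul n hn vals B M h _ (getD_mem vals h0 i) a)
      simpa [run, binCount, smulCount, add_assoc, add_comm 1, gateVal] using this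

theorem inv_inputs (n : ℕ) (hn : 2 ≤ n) : Inv n hn (inputs n) 0 0 := by
  have hmem : ∀ v ∈ inputs n, v = 0 ∨ ∃ k : Fin n, v = Pi.single k 1 := by
    intro v hv
    unfold inputs at hv
    rcases List.mem_cons.mp hv with h | h
    · exact Or.inl h
    · obtain ⟨k, hk⟩ := (List.mem_ofFn' _ _).mp h
      exact Or.inr ⟨k, hk.symm⟩
  refine ⟨by simp [inputs], ⟨fun k => (k : ℕ), ?_, ?_⟩, ?_, ⟨{1}, by simp, ?_⟩⟩
  · intro v hv
    rcases hmem v hv with rfl | ⟨k, rfl⟩
    · exact ⟨0, fun k hk => absurd rfl hk⟩
    · refine ⟨(k : ℕ), fun k' hk' => ?_⟩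
      by_cases h : k' = k
      · rw [h]
      · exact absurd (by simp [Pi.single_apply, h]) hk'
  · have : (univ.image (fun k : Fin n => (k : ℕ))).card = n := by
      rw [card_image_of_injective _ Fin.val_injective]
      simp
    omega
  · intro J hJp hJne
    exfalso
    obtain ⟨j, hj⟩ := hJne
    obtain ⟨v, hv, a, ha, hva⟩ := hJp j hj
    have hfull : ∀ k, v k ≠ 0 := by
      intro k
      rw [hva]
      simp only [Pi.smul_apply, smul_eq_mul]
      exact mul_ne_zero ha (dftRow_ne_zero n j k)
    rcases hmem v hv with rfl | ⟨k, rfl⟩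
    · exact hfull ⟨0, by omega⟩ rfl
    · by_cases hk : k = ⟨0, by omega⟩
      · refine hfull ⟨1, by omega⟩ ?_
        rw [hk]
        simp [Pi.single_apply]
      · refine hfull ⟨0, by omega⟩ ?_
        simp only [Pi.single_apply]
        rw [if_neg]
        exact fun h => hk h.symm
  · intro v hv
    rcases hmem v hv with rfl | ⟨k, rfl⟩
    · simp
    · by_cases h : (⟨1, by omega⟩ : Fin n) = k
      · apply Submodule.subset_span
        simp [Pi.single_apply, h]
      · simp [Pi.single_apply, h]

/-- the powers `ζ^0, ..., ζ^(φ(n)-1)` cannot lie in the rational span of fewer than `φ(n)` numbers -/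
theorem totient_le_card (n : ℕ) (hn : 2 ≤ n) (S : Finset ℂ)
    (h : ∀ i : ℕ, i < n →
      Complex.exp (2 * Real.pi * Complex.I / n) ^ i ∈ Submodule.span ℚ (S : Set ℂ)) :
    Nat.totient n ≤ S.card := by
  have hprim := Complex.isPrimitiveRoot_exp n (by omega)
  have hmin := Polynomial.cyclotomic_eq_minpoly_rat hprim (by omega)
  have hdeg : (minpoly ℚ (Complex.exp (2 * Real.pi * Complex.I / n))).natDegree = Nat.totient n := by
    rw [← hmin, Polynomial.natDegree_cyclotomic]
  have hli := linearIndependent_pow (K := ℚ) (Complex.exp (2 * Real.pi * Complex.I / n))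
  have hle := linearIndependent_le_span' _ hli (S : Set ℂ) (by
    rintro x ⟨i, rfl⟩
    refine h i ?_
    have : (i : ℕ) < Nat.totient n := lt_of_lt_of_eq i.2 hdeg
    exact lt_of_lt_of_le this (Nat.totient_le n))
  rw [Cardinal.mk_fintype, Fintype.card_fin, hdeg] at hle
  simpa using hle

/-- **Lower bound for linear circuits computing the discrete Fourier transform.**
Every linear circuit over `ℂ` with gates `u + v`, `u - v`, `λ u` (unrestricted scalars `λ`)
that computes `F_n x` has at least `2 n + φ(n) - 3` gates. -/
theorem result (n : ℕ) (hn : 2 ≤ n) (gs : List Gate) (h : Computes n gs) :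
    2 * n + Nat.totient n ≤ gs.length + 3 := by
  have hI := run_inv n hn gs (inputs n) 0 0 (inv_inputs n hn)
  obtain ⟨-, -, hJ, ⟨S, hS, hspan⟩⟩ := hI
  have hB : n + n ≤ 0 + binCount gs + 2 := by
    have := hJ univ (fun j _ => ⟨dftRow n j, h j, 1, one_ne_zero, (one_smul _ _).symm⟩)
      ⟨⟨0, by omega⟩, mem_univ _⟩
    simpa using this
  have hM : Nat.totient n ≤ S.card := by
    apply totient_le_card n hn S
    intro i hi
    have := hspan (dftRow n ⟨i, hi⟩) (h ⟨i, hi⟩)
    rwa [dftRow_one n hn] at this
  have := count_add gs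
  omega

end Vale.Agent.Results.P344.LinearLowerBound
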