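import Mathlib

namespace Vale.Agent.Results.P344.ThreeNBound

open Finset

/-- A gate of a linear circuit; the indices point at earlier nodes of the circuit. -/
inductive Gate where
  | add (i j : ℕ) : Gate
  | sub (i j : ℕ) : Gate
  | smul (c : ℂ) (i : ℕ) : Gate

/-- The linear form (as a coefficient vector) computed by a gate, given the list of the
forms computed at the earlier nodes.  An index outside the list reads the zero form. -/
noncomputable def gateVal (n : ℕ) (vals : List (Fin n → ℂ)) : Gate → (Fin n → ℂ)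
  | Gate.add i j => vals.getD i 0 + vals.getD j 0
  | Gate.sub i j => vals.getD i 0 - vals.getD j 0
  | Gate.smul c i => c • vals.getD i 0

/-- Run a list of gates, appending the form computed by each gate to the list of nodes. -/
noncomputable def run (n : ℕ) : List Gate → List (Fin n → ℂ) → List (Fin n → ℂ)
  | [], vals => vals
  | g :: gs, vals => run n gs (vals ++ [gateVal n vals g])

/-- The initial nodes: the constant `0` and the inputs `x_0, ..., x_{n-1}`. -/
noncomputable def inputs (n : ℕ) : List (Fin n → ℂ) :=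
  0 :: List.ofFn (fun k : Fin n => (Pi.single k 1 : Fin n → ℂ))

/-- Row `j` of the unnormalised Fourier matrix `F_n`, as a coefficient vector. -/
noncomputable def dftRow (n : ℕ) (j : Fin n) : Fin n → ℂ :=
  fun k => Complex.exp (2 * Real.pi * Complex.I / n) ^ ((j : ℕ) * (k : ℕ))

/-- The circuit `gs` computes `F_n x`: every row of `F_n` is the form at some node. -/
def Computes (n : ℕ) (gs : List Gate) : Prop :=
  ∀ j : Fin n, dftRow n j ∈ run n gs (inputs n)

/-- number of addition and subtraction gates -/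
def binCount : List Gate → ℕ
  | [] => 0
  | Gate.add _ _ :: gs => binCount gs + 1
  | Gate.sub _ _ :: gs => binCount gs + 1
  | Gate.smul _ _ :: gs => binCount gs

/-- number of scalar gates -/
def smulCount : List Gate → ℕ
  | [] => 0
  | Gate.add _ _ :: gs => smulCount gs
  | Gate.sub _ _ :: gs => smulCount gs
  | Gate.smul _ _ :: gs => smulCount gs + 1

theorem count_add (gs : List Gate) : binCount gs + smulCount gs = gs.length := by
  induction gs with
  | nil => rfl
  | cons g gs ih =>
    cases g <;> simp [binCount, smulCount] <;> omega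

theorem getD_mem {n : ℕ} (vals : List (Fin n → ℂ)) (h0 : (0 : Fin n → ℂ) ∈ vals) (i : ℕ) :
    vals.getD i 0 ∈ vals := by
  by_cases hi : i < vals.length
  · rw [List.getD_eq_getElem _ _ hi]
    exact List.getElem_mem hi
  · rw [List.getD_eq_default _ _ (by omega)]
    exact h0

/-- the support of `v` lies in a single class of the labelling `c` -/
def OneClass {n : ℕ} (c : Fin n → ℕ) (v : Fin n → ℂ) : Prop :=
  ∃ l, ∀ k, v k ≠ 0 → c k = l

/-- `j` is present: a nonzero multiple of row `j` is among the nodes -/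
def Present {n : ℕ} (vals : List (Fin n → ℂ)) (j : Fin n) : Prop :=
  ∃ v ∈ vals, ∃ a : ℂ, a ≠ 0 ∧ v = a • dftRow n j

/-- the invariant carried along the circuit -/
def Inv (n : ℕ) (hn : 2 ≤ n) (vals : List (Fin n → ℂ)) (B M : ℕ) : Prop :=
  (0 : Fin n → ℂ) ∈ vals ∧
  (∃ c : Fin n → ℕ, (∀ v ∈ vals, OneClass c v) ∧ n ≤ (univ.image c).card + B) ∧
  (∀ J : Finset (Fin n), (∀ j ∈ J, Present vals j) → J.Nonempty → n + J.card ≤ B + 2) ∧
  (∃ S : Finset (Fin n → ℂ), S.card ≤ M + n ∧
    ∀ v ∈ vals, v ∈ Submodule.span ℚ (S : Set (Fin n → ℂ)))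

theorem zeta_ne_zero (n : ℕ) : Complex.exp (2 * Real.pi * Complex.I / n) ≠ 0 :=
  Complex.exp_ne_zero _

theorem dftRow_ne_zero (n : ℕ) (j k : Fin n) : dftRow n j k ≠ 0 := by
  unfold dftRow
  exact pow_ne_zero _ (zeta_ne_zero n)

theorem dftRow_zero (n : ℕ) (hn : 2 ≤ n) (j : Fin n) : dftRow n j ⟨0, by omega⟩ = 1 := by
  unfold dftRow
  simp

theorem dftRow_one (n : ℕ) (hn : 2 ≤ n) (j : Fin n) :
    dftRow n j ⟨1, by omega⟩ = Complex.exp (2 * Real.pi * Complex.I / n) ^ (j : ℕ) := by
  unfold dftRow
  simp

/-- two rows of `F_n` that are proportional are equal -/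
theorem row_inj (n : ℕ) (hn : 2 ≤ n) (j j' : Fin n) (a a' : ℂ) (ha : a ≠ 0)
    (h : a • dftRow n j = a' • dftRow n j') : j = j' := by
  have h0 := congrFun h ⟨0, by omega⟩
  simp only [Pi.smul_apply, smul_eq_mul, dftRow_zero n hn, mul_one] at h0
  subst h0
  have h1 := congrFun h ⟨1, by omega⟩
  simp only [Pi.smul_apply, smul_eq_mul, dftRow_one n hn] at h1
  have h2 := mul_left_cancel₀ ha h1
  have hprim := Complex.isPrimitiveRoot_exp n (by omega)
  exact Fin.ext (hprim.pow_inj j.2 j'.2 h2)

theorem card_image_merge (T : Finset ℕ) (p q : ℕ) :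
    T.card ≤ (T.image (fun l => if l = q then p else l)).card + 1 := by
  have h1 : (T.erase q).card ≤ (T.image (fun l => if l = q then p else l)).card := by
    have hsub : (T.erase q).image (fun l => if l = q then p else l) ⊆
        T.image (fun l => if l = q then p else l) :=
      image_subset_image (erase_subset _ _)
    have hinj : Set.InjOn (fun l => if l = q then p else l) (T.erase q : Set ℕ) := by
      intro x hx y hy hxy
      have hx' : x ≠ q := (mem_erase.mp (mem_coe.mp hx)).1
      have hy' : y ≠ q := (mem_erase.mp (mem_coe.mp hy)).1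
      simpa [hx', hy'] using hxy
    calc (T.erase q).card = ((T.erase q).image (fun l => if l = q then p else l)).card :=
          (card_image_of_injOn hinj).symm
      _ ≤ _ := card_le_card hsub
  have h2 : T.card ≤ (T.erase q).card + 1 := by
    by_cases hq : q ∈ T
    · rw [card_erase_of_mem hq]; omega
    · rw [erase_eq_of_notMem hq]; omega
  omega

/-- a form all of whose coefficients are nonzero forces a single class -/
theorem card_image_of_full {n : ℕ} (c : Fin n → ℕ) (v : Fin n → ℂ) (hv : ∀ k, v k ≠ 0)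
    (hc : OneClass c v) : (univ.image c).card ≤ 1 := by
  obtain ⟨l, hl⟩ := hc
  have : univ.image c ⊆ {l} := by
    intro x hx
    obtain ⟨k, -, rfl⟩ := mem_image.mp hx
    exact mem_singleton.mpr (hl k (hv k))
  exact (card_le_card this).trans (by simp)

/-- the step for an addition or subtraction gate -/
theorem step_bin (n : ℕ) (hn : 2 ≤ n) (vals : List (Fin n → ℂ)) (B M : ℕ)
    (hI : Inv n hn vals B M) (u v w : Fin n → ℂ) (hu : u ∈ vals) (hv : v ∈ vals)
    (hw : w = u + v ∨ w = u - v) : Inv n hn (vals ++ [w]) (B + 1) M := by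
  obtain ⟨h0, ⟨c, hc, hcard⟩, hJ, ⟨S, hS, hspan⟩⟩ := hI
  have hsupp : ∀ k, w k ≠ 0 → u k ≠ 0 ∨ v k ≠ 0 := by
    intro k hk
    by_contra hcon
    push Not at hcon
    rcases hw with rfl | rfl
    · exact hk (by simp [hcon.1, hcon.2])
    · exact hk (by simp [hcon.1, hcon.2])
  -- the new labelling
  obtain ⟨p, hp⟩ := hc u hu
  obtain ⟨q, hq⟩ := hc v hv
  have hA : ∃ c' : Fin n → ℕ, (∀ x ∈ vals ++ [w], OneClass c' x) ∧
      n ≤ (univ.image c').card + (B + 1) := by
    refine ⟨fun k => if c k = q then p else c k, ?_, ?_⟩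
    · intro x hx
      rcases List.mem_append.mp hx with hx | hx
      · obtain ⟨l, hl⟩ := hc x hx
        refine ⟨if l = q then p else l, fun k hk => ?_⟩
        simp only [hl k hk]
      · rw [List.mem_singleton] at hx
        subst hx
        refine ⟨p, fun k hk => ?_⟩
        rcases hsupp k hk with h | h
        · have := hp k h
          by_cases hpq : c k = q
          · simp [hpq]
          · simp [this]
        · have := hq k h
          simp [this]
    · have himg : univ.image (fun k => if c k = q then p else c k) =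
          (univ.image c).image (fun l => if l = q then p else l) := by
        rw [image_image]
        rfl
      rw [himg]
      have := card_image_merge (univ.image c) p q
      omega
  refine ⟨List.mem_append_left _ h0, hA, ?_, ⟨S, hS, ?_⟩⟩
  · intro J hJp hJne
    by_cases hall : ∀ j ∈ J, Present vals j
    · have := hJ J hall hJne
      omega
    · push Not at hall
      obtain ⟨js, hjs, hnot⟩ := hall
      -- `js` is witnessed by `w` only
      have hwjs : ∃ a : ℂ, a ≠ 0 ∧ w = a • dftRow n js := by
        obtain ⟨x, hx, a, ha, hxa⟩ := hJp js hjs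
        rcases List.mem_append.mp hx with hx | hx
        · exact absurd ⟨x, hx, a, ha, hxa⟩ hnot
        · rw [List.mem_singleton] at hx
          subst hx
          exact ⟨a, ha, hxa⟩
      obtain ⟨a, ha, hwa⟩ := hwjs
      have hothers : ∀ j ∈ J.erase js, Present vals j := by
        intro j hj
        obtain ⟨hne, hjJ⟩ := mem_erase.mp hj
        obtain ⟨x, hx, a', ha', hxa⟩ := hJp j hjJ
        rcases List.mem_append.mp hx with hx | hx
        · exact ⟨x, hx, a', ha', hxa⟩
        · rw [List.mem_singleton] at hx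
          subst hx
          exact absurd (row_inj n hn js j a a' ha (hwa.symm.trans hxa)).symm hne
      by_cases hne : (J.erase js).Nonempty
      · have := hJ (J.erase js) hothers hne
        rw [card_erase_of_mem hjs] at this
        have hpos : 0 < J.card := card_pos.mpr hJne
        omega
      · rw [not_nonempty_iff_eq_empty] at hne
        have hcardJ : J.card = 1 := by
          have := card_erase_of_mem hjs
          rw [hne] at this
          simp at this
          have hpos : 0 < J.card := card_pos.mpr hJne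
          omega
        obtain ⟨c', hc', hcard'⟩ := hA
        have hfull : ∀ k, w k ≠ 0 := by
          intro k
          rw [hwa]
          simp only [Pi.smul_apply, smul_eq_mul]
          exact mul_ne_zero ha (dftRow_ne_zero n js k)
        have := card_image_of_full c' w hfull (hc' w (List.mem_append_right _ (by simp)))
        omega
  · intro x hx
    rcases List.mem_append.mp hx with hx | hx
    · exact hspan x hx
    · rw [List.mem_singleton] at hx
      subst hx
      rcases hw with rfl | rfl
      · exact Submodule.add_mem _ (hspan u hu) (hspan v hv)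
      · exact Submodule.sub_mem _ (hspan u hu) (hspan v hv)

/-- the step for a scalar gate -/
theorem step_smul (n : ℕ) (hn : 2 ≤ n) (vals : List (Fin n → ℂ)) (B M : ℕ)
    (hI : Inv n hn vals B M) (u : Fin n → ℂ) (hu : u ∈ vals) (a : ℂ) :
    Inv n hn (vals ++ [a • u]) B (M + 1) := by
  obtain ⟨h0, ⟨c, hc, hcard⟩, hJ, ⟨S, hS, hspan⟩⟩ := hI
  refine ⟨List.mem_append_left _ h0, ⟨c, ?_, hcard⟩, ?_, ?_⟩
  · intro x hx
    rcases List.mem_append.mp hx with hx | hx
    · exact hc x hx
    · rw [List.mem_singleton] at hx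
      subst hx
      obtain ⟨l, hl⟩ := hc u hu
      refine ⟨l, fun k hk => hl k ?_⟩
      intro h
      exact hk (by simp [h])
  · intro J hJp hJne
    refine hJ J (fun j hj => ?_) hJne
    obtain ⟨x, hx, b, hb, hxb⟩ := hJp j hj
    rcases List.mem_append.mp hx with hx | hx
    · exact ⟨x, hx, b, hb, hxb⟩
    · rw [List.mem_singleton] at hx
      subst hx
      have ha : a ≠ 0 := by
        rintro rfl
        have := congrFun hxb ⟨0, by omega⟩
        simp [dftRow_zero n hn] at this
        exact hb this.symm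
      refine ⟨u, hu, a⁻¹ * b, mul_ne_zero (inv_ne_zero ha) hb, ?_⟩
      rw [mul_smul, ← hxb, smul_smul, inv_mul_cancel₀ ha, one_smul]
  · classical
    refine ⟨insert (a • u) S, ?_, ?_⟩
    · have := card_insert_le (a • u) S
      omega
    · intro x hx
      rcases List.mem_append.mp hx with hx | hx
      · exact Submodule.span_mono (by simp) (hspan x hx)
      · rw [List.mem_singleton] at hx
        subst hx
        apply Submodule.subset_span
        simp

theorem run_inv (n : ℕ) (hn : 2 ≤ n) : ∀ (gs : List Gate) (vals : List (Fin n → ℂ)) (B M : ℕ),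
    Inv n hn vals B M → Inv n hn (run n gs vals) (B + binCount gs) (M + smulCount gs) := by
  intro gs
  induction gs with
  | nil => intro vals B M h; simpa [run, binCount, smulCount] using h
  | cons g gs ih =>
    intro vals B M h
    have h0 := h.1
    cases g with
    | add i j =>
      have := ih _ _ _ (step_bin n hn vals B M h _ _ (gateVal n vals (Gate.add i j))
        (getD_mem vals h0 i) (getD_mem vals h0 j) (Or.inl rfl))
      simpa [run, binCount, smulCount, add_assoc, add_comm 1] using this
    | sub i j =>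
      have := ih _ _ _ (step_bin n hn vals B M h _ _ (gateVal n vals (Gate.sub i j))
        (getD_mem vals h0 i) (getD_mem vals h0 j) (Or.inr rfl))
      simpa [run, binCount, smulCount, add_assoc, add_comm 1] using this
    | smul a i =>
      have := ih _ _ _ (step_smul n hn vals B M h _ (getD_mem vals h0 i) a)
      simpa [run, binCount, smulCount, add_assoc, add_comm 1, gateVal] using this

theorem inv_inputs (n : ℕ) (hn : 2 ≤ n) : Inv n hn (inputs n) 0 0 := by
  have hmem : ∀ v ∈ inputs n, v = 0 ∨ ∃ k : Fin n, v = Pi.single k 1 := by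
    intro v hv
    unfold inputs at hv
    rcases List.mem_cons.mp hv with h | h
    · exact Or.inl h
    · obtain ⟨k, hk⟩ := (List.mem_ofFn' _ _).mp h
      exact Or.inr ⟨k, hk.symm⟩
  classical
  refine ⟨by simp [inputs], ⟨fun k => (k : ℕ), ?_, ?_⟩, ?_,
    ⟨univ.image (fun k : Fin n => (Pi.single k 1 : Fin n → ℂ)),
      by simpa using (card_image_le (s := (univ : Finset (Fin n)))
        (f := fun k : Fin n => (Pi.single k 1 : Fin n → ℂ))), ?_⟩⟩
  · intro v hv
    rcases hmem v hv with rfl | ⟨k, rfl⟩
    · exact ⟨0, fun k hk => absurd rfl hk⟩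
    · refine ⟨(k : ℕ), fun k' hk' => ?_⟩
      by_cases h : k' = k
      · rw [h]
      · exact absurd (by simp [Pi.single_apply, h]) hk'
  · have : (univ.image (fun k : Fin n => (k : ℕ))).card = n := by
      rw [card_image_of_injective _ Fin.val_injective]
      simp
    omega
  · intro J hJp hJne
    exfalso
    obtain ⟨j, hj⟩ := hJne
    obtain ⟨v, hv, a, ha, hva⟩ := hJp j hj
    have hfull : ∀ k, v k ≠ 0 := by
      intro k
      rw [hva]
      simp only [Pi.smul_apply, smul_eq_mul]
      exact mul_ne_zero ha (dftRow_ne_zero n j k)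
    rcases hmem v hv with rfl | ⟨k, rfl⟩
    · exact hfull ⟨0, by omega⟩ rfl
    · by_cases hk : k = ⟨0, by omega⟩
      · refine hfull ⟨1, by omega⟩ ?_
        rw [hk]
        simp [Pi.single_apply]
      · refine hfull ⟨0, by omega⟩ ?_
        simp only [Pi.single_apply]
        rw [if_neg]
        exact fun h => hk h.symm
  · intro v hv
    rcases hmem v hv with rfl | ⟨k, rfl⟩
    · exact Submodule.zero_mem _
    · apply Submodule.subset_span
      exact mem_coe.mpr (mem_image_of_mem _ (mem_univ k))

theorem mem_run (n : ℕ) : ∀ (gs : List Gate) (vals : List (Fin n → ℂ)) (v : Fin n → ℂ),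
    v ∈ vals → v ∈ run n gs vals := by
  intro gs
  induction gs with
  | nil => intro vals v hv; simpa [run] using hv
  | cons g gs ih =>
    intro vals v hv
    show v ∈ run n gs (vals ++ [gateVal n vals g])
    exact ih _ v (List.mem_append_left _ hv)

/-- the characters `k ↦ ζ^(m k)` are linearly independent -/
theorem char_indep (n : ℕ) (ζ : ℂ) (hprim : IsPrimitiveRoot ζ n) (d : Fin n → ℂ)
    (h : ∀ k : Fin n, ∑ m : Fin n, d m * ζ ^ ((m : ℕ) * (k : ℕ)) = 0) : d = 0 := by
  have hinj : Function.Injective (fun k : Fin n => ζ ^ (k : ℕ)) :=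
    fun a b hab => Fin.ext (hprim.pow_inj a.2 b.2 hab)
  have hdet : (Matrix.vandermonde (fun k : Fin n => ζ ^ (k : ℕ))).det ≠ 0 :=
    Matrix.det_vandermonde_ne_zero_iff.mpr hinj
  apply Matrix.eq_zero_of_mulVec_eq_zero hdet
  funext k
  rw [Pi.zero_apply, ← h k]
  simp only [Matrix.mulVec, dotProduct, Matrix.vandermonde_apply]
  refine Finset.sum_congr rfl fun m _ => ?_
  rw [← pow_mul, Nat.mul_comm]
  ring

/-- a rational relation at `ζ` persists at `ζ^u` for `u` coprime to `n` -/
theorem galois_step (n : ℕ) (hn : 2 ≤ n) (ζ : ℂ) (hprim : IsPrimitiveRoot ζ n)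
    (c : Fin n → ℚ) (q : ℚ) (K u : ℕ) (hu : Nat.Coprime u n)
    (h : ∑ j : Fin n, (c j : ℂ) * ζ ^ ((j : ℕ) * K) = (q : ℂ)) :
    ∑ j : Fin n, (c j : ℂ) * (ζ ^ u) ^ ((j : ℕ) * K) = (q : ℂ) := by
  have hmin := Polynomial.cyclotomic_eq_minpoly_rat hprim (by omega)
  have hev : ∀ x : ℂ, Polynomial.aeval x
      (∑ j : Fin n, Polynomial.C (c j) * Polynomial.X ^ ((j : ℕ) * K) - Polynomial.C q :
        Polynomial ℚ)
      = ∑ j : Fin n, (c j : ℂ) * x ^ ((j : ℕ) * K) - (q : ℂ) := by
    intro x
    simp [map_sum]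
  have hp := (hev ζ).trans (sub_eq_zero.mpr h)
  obtain ⟨r, hr⟩ := minpoly.dvd ℚ ζ hp
  have hroot : Polynomial.aeval (ζ ^ u) (minpoly ℚ ζ) = 0 := by
    rw [← hmin]
    have h1 := (hprim.pow_of_coprime u hu).isRoot_cyclotomic (by omega : 0 < n)
    rw [Polynomial.aeval_def, Polynomial.eval₂_eq_eval_map, Polynomial.map_cyclotomic]
    exact h1
  have h2 := hev (ζ ^ u)
  rw [hr, map_mul, hroot, zero_mul] at h2
  exact sub_eq_zero.mp h2.symm

/-- rational coefficients of a rational combination of the rows are constant on the orbits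
of multiplication by units modulo `n` -/
theorem orbit_const (n : ℕ) (hn : 2 ≤ n) (ζ : ℂ) (hprim : IsPrimitiveRoot ζ n)
    (c : Fin n → ℚ) (q : Fin n → ℚ)
    (h : ∀ k : Fin n, ∑ j : Fin n, (c j : ℂ) * ζ ^ ((j : ℕ) * (k : ℕ)) = (q k : ℂ))
    (u : ℕ) (hu : Nat.Coprime u n) (j₀ : Fin n) :
    c ⟨(u * (j₀ : ℕ)) % n, Nat.mod_lt _ (by omega)⟩ = c j₀ := by
  have hinj : Function.Injective
      (fun j : Fin n => (⟨(u * (j : ℕ)) % n, Nat.mod_lt _ (by omega)⟩ : Fin n)) := by
    intro a b hab
    have h1 : (u * (a : ℕ)) % n = (u * (b : ℕ)) % n := congrArg Fin.val hab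
    have h2 : (a : ℕ) ≡ (b : ℕ) [MOD n] := Nat.ModEq.cancel_left_of_coprime hu.symm h1
    have h3 : (a : ℕ) % n = (b : ℕ) % n := h2
    rw [Nat.mod_eq_of_lt a.2, Nat.mod_eq_of_lt b.2] at h3
    exact Fin.ext h3
  let π : Fin n ≃ Fin n := Equiv.ofBijective _ (Finite.injective_iff_bijective.mp hinj)
  have hπ : ∀ j : Fin n, ((π j : Fin n) : ℕ) = (u * (j : ℕ)) % n := fun j => rfl
  have hd : ∀ k : Fin n, ∑ m : Fin n,
      ((c (π.symm m) : ℂ) - (c m : ℂ)) * ζ ^ ((m : ℕ) * (k : ℕ)) = 0 := by
    intro k
    have h1 := galois_step n hn ζ hprim c (q k) k u hu (h k)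
    have h2 : ∑ m : Fin n, (c (π.symm m) : ℂ) * ζ ^ ((m : ℕ) * (k : ℕ)) = (q k : ℂ) := by
      rw [← h1, ← Equiv.sum_comp π]
      refine Finset.sum_congr rfl fun j _ => ?_
      rw [Equiv.symm_apply_apply, hπ j]
      have e1 : ζ ^ ((u * (j : ℕ)) % n) = ζ ^ (u * (j : ℕ)) :=
        (pow_eq_pow_mod _ hprim.pow_eq_one).symm
      have e2 : ζ ^ ((u * (j : ℕ)) % n * (k : ℕ)) = (ζ ^ u) ^ ((j : ℕ) * (k : ℕ)) := by
        rw [pow_mul, e1, ← pow_mul, ← pow_mul, mul_assoc]
      rw [e2]
    simp only [sub_mul, Finset.sum_sub_distrib, h2, h k, sub_self]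
  have h0 := char_indep n ζ hprim (fun m => (c (π.symm m) : ℂ) - (c m : ℂ)) hd
  have h3 := congrFun h0 (π j₀)
  simp only [Equiv.symm_apply_apply, Pi.zero_apply, sub_eq_zero] at h3
  have h4 : c j₀ = c (π j₀) := by exact_mod_cast h3
  exact h4.symm

/-- every residue is a unit multiple of `0` or of a proper divisor of `n` -/
theorem orbit_rep (n : ℕ) (hn : 2 ≤ n) (j : Fin n) :
    ∃ g : Fin n, ((g : ℕ) = 0 ∨ (g : ℕ) ∣ n) ∧
      ∃ u : ℕ, Nat.Coprime u n ∧ (u * (g : ℕ)) % n = (j : ℕ) := by
  have : NeZero n := ⟨by omega⟩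
  obtain ⟨d, hd, w, hw, hjw⟩ := ZMod.eq_unit_mul_divisor (((j : ℕ) : ZMod n))
  have hwv : ((w.val : ℕ) : ZMod n) = w := ZMod.natCast_zmod_val w
  have hcop : Nat.Coprime w.val n := by
    rw [← ZMod.isUnit_iff_coprime, hwv]
    exact hw
  have heq : (j : ℕ) % n = (w.val * d) % n := by
    rw [← ZMod.natCast_eq_natCast_iff', hjw, Nat.cast_mul, hwv]
  rw [Nat.mod_eq_of_lt j.2] at heq
  by_cases hdn : d = n
  · subst hdn
    refine ⟨⟨0, by omega⟩, Or.inl rfl, 1, Nat.coprime_one_left _, ?_⟩
    rw [heq]
    simp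
  · have hdlt : d < n := lt_of_le_of_ne (Nat.le_of_dvd (by omega) hd) hdn
    exact ⟨⟨d, hdlt⟩, Or.inr hd, w.val, hcop, heq.symm⟩

/-- the unit vectors together with the rows of `F_n` span a rational space of dimension at
least `2 n - d(n)` -/
theorem span_card (n : ℕ) (hn : 2 ≤ n) (S : Finset (Fin n → ℂ))
    (he : ∀ k : Fin n, (Pi.single k 1 : Fin n → ℂ) ∈ Submodule.span ℚ (S : Set (Fin n → ℂ)))
    (hr : ∀ j : Fin n, dftRow n j ∈ Submodule.span ℚ (S : Set (Fin n → ℂ))) :
    2 * n ≤ S.card + (Nat.divisors n).card := by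
  classical
  have hprim := Complex.isPrimitiveRoot_exp n (by omega)
  let P : Fin n → Prop := fun g => (g : ℕ) = 0 ∨ (g : ℕ) ∣ n
  let fam : Fin n ⊕ {j : Fin n // ¬ P j} → (Fin n → ℂ) := fun i =>
    match i with
    | Sum.inl k => Pi.single k 1
    | Sum.inr j => dftRow n j.1
  have hli : LinearIndependent ℚ fam := by
    rw [Fintype.linearIndependent_iff]
    intro g hg
    let c : Fin n → ℚ := fun j => if hj : ¬ P j then g (Sum.inr ⟨j, hj⟩) else 0
    have hcoord : ∀ k : Fin n, ∑ j : Fin n,
        (c j : ℂ) * Complex.exp (2 * Real.pi * Complex.I / n) ^ ((j : ℕ) * (k : ℕ))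
        = ((-g (Sum.inl k) : ℚ) : ℂ) := by
      intro k
      have h1 := congrFun hg k
      rw [Fintype.sum_sum_type] at h1
      simp only [Pi.add_apply, Finset.sum_apply, Pi.smul_apply, fam, Pi.zero_apply,
        Rat.smul_def] at h1
      have e0 : ∑ x : Fin n, (g (Sum.inl x) : ℂ) * (Pi.single x (1 : ℂ) : Fin n → ℂ) k
          = (g (Sum.inl k) : ℂ) := by
        simp [Pi.single_apply]
      have e1 : ∑ j : Fin n,
          (c j : ℂ) * Complex.exp (2 * Real.pi * Complex.I / n) ^ ((j : ℕ) * (k : ℕ)) =
          ∑ j ∈ Finset.univ.filter (fun j => ¬ P j),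
            (c j : ℂ) * Complex.exp (2 * Real.pi * Complex.I / n) ^ ((j : ℕ) * (k : ℕ)) := by
        rw [Finset.sum_filter]
        refine Finset.sum_congr rfl fun j _ => ?_
        by_cases hj : ¬ P j
        · rw [if_pos hj]
        · rw [if_neg hj]
          simp [c, hj]
      have e2 : ∑ j ∈ Finset.univ.filter (fun j => ¬ P j),
            (c j : ℂ) * Complex.exp (2 * Real.pi * Complex.I / n) ^ ((j : ℕ) * (k : ℕ)) =
          ∑ j : {j : Fin n // ¬ P j}, (g (Sum.inr j) : ℂ) * dftRow n j.1 k := by
        rw [Finset.sum_subtype (p := fun j : Fin n => ¬ P j)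
          (Finset.univ.filter (fun j => ¬ P j)) (fun x => by simp)]
        refine Finset.sum_congr rfl fun j _ => ?_
        have hcj : c j.1 = g (Sum.inr j) := by
          simp [c, j.2]
        rw [hcj]
        rfl
      rw [e0] at h1
      rw [e1, e2]
      push_cast
      linear_combination h1
    have hc0 : ∀ j : Fin n, c j = 0 := by
      intro j
      obtain ⟨g0, hg0, u, hu, huj⟩ := orbit_rep n hn j
      have h1 := orbit_const n hn _ hprim c (fun k => -g (Sum.inl k)) hcoord u hu g0
      have hj : (⟨(u * (g0 : ℕ)) % n, Nat.mod_lt _ (by omega)⟩ : Fin n) = j := Fin.ext huj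
      rw [hj] at h1
      rw [h1]
      have hP : P g0 := hg0
      simp [c, hP]
    intro i
    cases i with
    | inl k =>
      have h1 := hcoord k
      simp only [hc0, Rat.cast_zero, zero_mul, Finset.sum_const_zero] at h1
      have h2 : ((-g (Sum.inl k) : ℚ) : ℂ) = ((0 : ℚ) : ℂ) := by rw [← h1]; simp
      have h3 : -g (Sum.inl k) = 0 := by exact_mod_cast h2
      linarith
    | inr j =>
      have h1 := hc0 j.1
      have hcj : c j.1 = g (Sum.inr j) := by
        simp [c, j.2]
      rw [hcj] at h1
      exact h1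
  have hle := linearIndependent_le_span' _ hli (S : Set (Fin n → ℂ)) (by
    rintro x ⟨i, rfl⟩
    cases i with
    | inl k => exact he k
    | inr j => exact hr j.1)
  rw [Cardinal.mk_fintype] at hle
  have hle' : Fintype.card (Fin n ⊕ {j : Fin n // ¬ P j}) ≤
      Fintype.card ((S : Set (Fin n → ℂ)) : Type) := Nat.cast_le.mp hle
  have hS : Fintype.card ((S : Set (Fin n → ℂ)) : Type) = S.card := by simp
  rw [hS, Fintype.card_sum, Fintype.card_fin, Fintype.card_subtype_compl, Fintype.card_fin]
    at hle'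
  have hrep : Fintype.card {j : Fin n // P j} ≤ (Nat.divisors n).card := by
    rw [Fintype.card_subtype]
    apply Finset.card_le_card_of_injOn (fun j : Fin n => if (j : ℕ) = 0 then n else (j : ℕ))
    · intro j hj
      have hj' : P j := (Finset.mem_filter.mp (Finset.mem_coe.mp hj)).2
      rw [Finset.mem_coe, Nat.mem_divisors]
      beta_reduce
      by_cases h0 : (j : ℕ) = 0
      · rw [if_pos h0]
        exact ⟨dvd_refl n, by omega⟩
      · rw [if_neg h0]
        rcases hj' with h | h
        · exact absurd h h0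
        · exact ⟨h, by omega⟩
    · intro a _ b _ hab
      have ha2 := a.2
      have hb2 := b.2
      apply Fin.ext
      by_cases ha0 : (a : ℕ) = 0 <;> by_cases hb0 : (b : ℕ) = 0 <;>
        simp only [ha0, hb0, if_true, if_false] at hab <;> omega
  omega

/-- **Lower bound for linear circuits computing the discrete Fourier transform.**
Every linear circuit over `ℂ` with gates `u + v`, `u - v`, `λ u` (unrestricted scalars `λ`)
that computes `F_n x` has at least `3 n - d(n) - 2` gates, where `d(n)` is the number of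
divisors of `n`. -/
theorem result (n : ℕ) (hn : 2 ≤ n) (gs : List Gate) (h : Computes n gs) :
    3 * n ≤ gs.length + (Nat.divisors n).card + 2 := by
  have hI := run_inv n hn gs (inputs n) 0 0 (inv_inputs n hn)
  obtain ⟨-, -, hJ, ⟨S, hS, hspan⟩⟩ := hI
  have hB : n + n ≤ 0 + binCount gs + 2 := by
    have := hJ univ (fun j _ => ⟨dftRow n j, h j, 1, one_ne_zero, (one_smul _ _).symm⟩)
      ⟨⟨0, by omega⟩, mem_univ _⟩
    simpa using this
  have hM : 2 * n ≤ S.card + (Nat.divisors n).card := by
    apply span_card n hn S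
    · intro k
      apply hspan
      apply mem_run
      simp [inputs]
    · intro j
      exact hspan _ (h j)
  have := count_add gs
  omega

end Vale.Agent.Results.P344.ThreeNBound
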